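import Mathlib

/-!
Boxes of exponents, lex upper segments and shadows.
-/

namespace Vale.Agent.P200.CL

variable {n : ℕ}

/-- Exponents of degree `d` below `a`. -/
def box (a : Fin n → ℕ) (d : ℕ) : Finset (Fin n → ℕ) :=
  (Finset.piAntidiag Finset.univ d).filter fun e => ∀ i, e i < a i

lemma mem_box {a : Fin n → ℕ} {d : ℕ} {e : Fin n → ℕ} :
    e ∈ box a d ↔ ∑ i, e i = d ∧ ∀ i, e i < a i := by
  simp [box]

/-- Add one to a coordinate. -/
def raise (e : Fin n → ℕ) (i : Fin n) : Fin n → ℕ := Function.update e i (e i + 1)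

/-- Remove one from a coordinate. -/
def lower (e : Fin n → ℕ) (i : Fin n) : Fin n → ℕ := Function.update e i (e i - 1)

lemma raise_self (e : Fin n → ℕ) (i : Fin n) : raise e i i = e i + 1 := by simp [raise]

lemma raise_ne (e : Fin n → ℕ) {i j : Fin n} (h : j ≠ i) : raise e i j = e j := by simp [raise, h]

lemma lower_self (e : Fin n → ℕ) (i : Fin n) : lower e i i = e i - 1 := by simp [lower]

lemma lower_ne (e : Fin n → ℕ) {i j : Fin n} (h : j ≠ i) : lower e i j = e j := by simp [lower, h]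

lemma lower_raise (e : Fin n → ℕ) (i : Fin n) : lower (raise e i) i = e := by
  funext j
  rcases eq_or_ne j i with rfl | h
  · simp [lower, raise]
  · simp [lower, raise, h]

lemma raise_lower {e : Fin n → ℕ} {i : Fin n} (h0 : 0 < e i) : raise (lower e i) i = e := by
  funext j
  rcases eq_or_ne j i with rfl | h
  · simp [lower, raise]; omega
  · simp [lower, raise, h]

lemma sum_raise (e : Fin n → ℕ) (i : Fin n) : ∑ j, raise e i j = ∑ j, e j + 1 := by
  have h : raise e i = e + Pi.single i 1 := by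
    funext j
    rcases eq_or_ne j i with rfl | h
    · simp [raise]
    · simp [raise, h]
  simp [h, Finset.sum_add_distrib]

lemma mem_box_raise {a : Fin n → ℕ} {d : ℕ} {e : Fin n → ℕ} {i : Fin n} (he : e ∈ box a d)
    (h : e i + 1 < a i) : raise e i ∈ box a (d + 1) := by
  obtain ⟨h1, h2⟩ := mem_box.1 he
  refine mem_box.2 ⟨by rw [sum_raise, h1], fun j => ?_⟩
  rcases eq_or_ne j i with rfl | hj
  · rwa [raise_self]
  · rw [raise_ne _ hj]; exact h2 j

lemma lower_mem_box {a : Fin n → ℕ} {d : ℕ} {f : Fin n → ℕ} {i : Fin n} (hf : f ∈ box a (d + 1))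
    (h : 0 < f i) : lower f i ∈ box a d := by
  obtain ⟨h1, h2⟩ := mem_box.1 hf
  refine mem_box.2 ⟨?_, fun j => ?_⟩
  · have h3 := sum_raise (lower f i) i
    rw [raise_lower h] at h3
    omega
  · rcases eq_or_ne j i with rfl | hj
    · rw [lower_self]; have := h2 j; omega
    · rw [lower_ne _ hj]; exact h2 j

/-- Exponents in the box one step above `A`. -/
def up (a : Fin n → ℕ) (d : ℕ) (A : Finset (Fin n → ℕ)) : Finset (Fin n → ℕ) :=
  (box a (d + 1)).filter fun f => ∃ i, 0 < f i ∧ lower f i ∈ A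

lemma mem_up {a : Fin n → ℕ} {d : ℕ} {A : Finset (Fin n → ℕ)} {f : Fin n → ℕ} :
    f ∈ up a d A ↔ f ∈ box a (d + 1) ∧ ∃ i, 0 < f i ∧ lower f i ∈ A := by
  simp [up]

lemma up_subset (a : Fin n → ℕ) (d : ℕ) (A : Finset (Fin n → ℕ)) : up a d A ⊆ box a (d + 1) :=
  Finset.filter_subset _ _

lemma up_mono {a : Fin n → ℕ} {d : ℕ} {A B : Finset (Fin n → ℕ)} (h : A ⊆ B) :
    up a d A ⊆ up a d B := fun f hf => by
  obtain ⟨h1, i, h2, h3⟩ := mem_up.1 hf
  exact mem_up.2 ⟨h1, i, h2, h h3⟩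

/-- A lex upper segment of the box. -/
def IsTop (a : Fin n → ℕ) (d : ℕ) (S : Finset (Fin n → ℕ)) : Prop :=
  S ⊆ box a d ∧ ∀ e ∈ S, ∀ e' ∈ box a d, toLex e < toLex e' → e' ∈ S

lemma IsTop.total {a : Fin n → ℕ} {d : ℕ} {S T : Finset (Fin n → ℕ)} (hS : IsTop a d S)
    (hT : IsTop a d T) : S ⊆ T ∨ T ⊆ S := by
  by_contra hcon
  push Not at hcon
  obtain ⟨h1, h2⟩ := hcon
  obtain ⟨x, hx, hx'⟩ := Finset.not_subset.1 h1
  obtain ⟨y, hy, hy'⟩ := Finset.not_subset.1 h2
  rcases lt_trichotomy (toLex x) (toLex y) with h | h | h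
  · exact hy' (hS.2 x hx y (hT.1 hy) h)
  · exact hx' (toLex.injective h ▸ hy)
  · exact hx' (hT.2 y hy x (hS.1 hx) h)

lemma IsTop.subset_of_card {a : Fin n → ℕ} {d : ℕ} {S T : Finset (Fin n → ℕ)} (hS : IsTop a d S)
    (hT : IsTop a d T) (h : S.card ≤ T.card) : S ⊆ T := by
  rcases hS.total hT with h' | h'
  · exact h'
  · exact (Finset.eq_of_subset_of_card_le h' h).ge

lemma exists_isTop (a : Fin n → ℕ) (d : ℕ) :
    ∀ k, k ≤ (box a d).card → ∃ S, IsTop a d S ∧ S.card = k := by
  intro k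
  induction k with
  | zero => intro _; exact ⟨∅, ⟨Finset.empty_subset _, by simp⟩, rfl⟩
  | succ k ih =>
    intro hk
    obtain ⟨S, hS, hc⟩ := ih (by omega)
    obtain ⟨z, hz, hmax⟩ := Finset.exists_max_image (box a d \ S) toLex
      (Finset.card_pos.1 (by rw [Finset.card_sdiff_of_subset hS.1]; omega))
    rw [Finset.mem_sdiff] at hz
    refine ⟨insert z S, ⟨Finset.insert_subset hz.1 hS.1, fun e he e' he' hlt => ?_⟩,
      by rw [Finset.card_insert_of_notMem hz.2, hc]⟩
    rcases Finset.mem_insert.1 he with rfl | he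
    · refine Finset.mem_insert_of_mem (by_contra fun hne => ?_)
      exact absurd (hmax e' (Finset.mem_sdiff.2 ⟨he', hne⟩)) (not_le.2 hlt)
    · exact Finset.mem_insert_of_mem (hS.2 e he e' he' hlt)

lemma lt_iff {e e' : Fin n → ℕ} :
    toLex e < toLex e' ↔ ∃ j, (∀ i < j, e i = e' i) ∧ e j < e' j :=
  Iff.rfl

lemma le_lower_of_lt {e f' : Fin n → ℕ} {i L : Fin n} (hlast : ∀ k, L < k → f' k = 0)
    (hL : 0 < f' L) (hsum : ∑ k, f' k = ∑ k, e k + 1)
    (hlt : toLex (raise e i) < toLex f') : toLex e ≤ toLex (lower f' L) := by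
  obtain ⟨j, hj1, hj2⟩ := lt_iff.1 hlt
  have hjL : j ≤ L := by
    by_contra h
    have := hlast j (not_le.1 h)
    omega
  rcases lt_or_ge i j with hij | hij
  · refine le_of_lt (lt_iff.2 ⟨i, fun k hk => ?_, ?_⟩)
    · rw [lower_ne _ (ne_of_lt (lt_of_lt_of_le (hk.trans hij) hjL)), ← hj1 k (hk.trans hij),
        raise_ne _ (ne_of_lt hk)]
    · rw [lower_ne _ (ne_of_lt (lt_of_lt_of_le hij hjL)), ← hj1 i hij, raise_self]
      omega
  · have hpre : ∀ k < j, e k = f' k := fun k hk => by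
      rw [← hj1 k hk, raise_ne _ (ne_of_lt (lt_of_lt_of_le hk hij))]
    have hej : e j < f' j := by
      rcases eq_or_ne j i with rfl | h
      · rw [raise_self] at hj2; omega
      · rw [raise_ne _ h] at hj2; exact hj2
    rcases eq_or_lt_of_le hjL with rfl | hjL'
    · by_cases hlt' : e j < f' j - 1
      · refine le_of_lt (lt_iff.2 ⟨j, fun k hk => ?_, ?_⟩)
        · rw [lower_ne _ (ne_of_lt hk)]; exact hpre k hk
        · rw [lower_self]; exact hlt'
      · have hle : ∀ k, lower f' j k ≤ e k := fun k => by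
          rcases lt_trichotomy k j with h | rfl | h
          · rw [lower_ne _ (ne_of_lt h), hpre k h]
          · rw [lower_self]; omega
          · rw [lower_ne _ (ne_of_gt h), hlast k h]; exact Nat.zero_le _
        have hs := sum_raise (lower f' j) j
        rw [raise_lower hL] at hs
        have := (Finset.sum_eq_sum_iff_of_le (s := Finset.univ) (fun k _ => hle k)).1 (by omega)
        exact le_of_eq (congrArg toLex (funext fun k => (this k (Finset.mem_univ k)).symm))
    · refine le_of_lt (lt_iff.2 ⟨j, fun k hk => ?_, ?_⟩)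
      · rw [lower_ne _ (ne_of_lt (hk.trans hjL'))]; exact hpre k hk
      · rw [lower_ne _ (ne_of_lt hjL')]; exact hej

lemma IsTop.up {a : Fin n → ℕ} {d : ℕ} {S : Finset (Fin n → ℕ)} (hS : IsTop a d S) :
    IsTop a (d + 1) (up a d S) := by
  refine ⟨up_subset _ _ _, fun f hf f' hf' hlt => ?_⟩
  obtain ⟨hfb, i, hi, hmem⟩ := mem_up.1 hf
  obtain ⟨hs', -⟩ := mem_box.1 hf'
  obtain ⟨hse, -⟩ := mem_box.1 (hS.1 hmem)
  have hne : (Finset.univ.filter fun k => 0 < f' k).Nonempty := by
    by_contra h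
    rw [Finset.not_nonempty_iff_eq_empty, Finset.filter_eq_empty_iff] at h
    have : ∑ k, f' k = 0 := Finset.sum_eq_zero fun k hk => by have := h hk; omega
    omega
  set L := (Finset.univ.filter fun k => 0 < f' k).max' hne with hLdef
  have hL : 0 < f' L := by simpa using Finset.max'_mem _ hne
  have hlast : ∀ k, L < k → f' k = 0 := fun k hk => by
    by_contra h
    exact absurd (Finset.le_max' _ k (by simp; omega)) (not_le.2 hk)
  refine mem_up.2 ⟨hf', L, hL, ?_⟩
  rcases (le_lower_of_lt (e := lower f i) (i := i) hlast hL (by omega)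
    (by rw [raise_lower hi]; exact hlt)).eq_or_lt with h | h
  · rw [← toLex.injective h]; exact hmem
  · exact hS.2 _ hmem _ (lower_mem_box hf' hL) h

end Vale.Agent.P200.CL
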