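import Vale.Agent.P200.CL.Box

/-!
Slices, compression and exchange.
-/

namespace Vale.Agent.P200.CL

variable {n : ℕ}

lemma insertNth_lt {i : Fin (n + 1)} {j : ℕ} {y y' : Fin n → ℕ} (h : toLex y < toLex y') :
    toLex (i.insertNth j y : Fin (n + 1) → ℕ) < toLex (i.insertNth j y' : Fin (n + 1) → ℕ) := by
  obtain ⟨k, hk1, hk2⟩ := lt_iff.1 h
  refine lt_iff.2 ⟨i.succAbove k, fun l hl => ?_, by simpa using hk2⟩
  rcases Fin.eq_self_or_eq_succAbove i l with rfl | ⟨m, rfl⟩
  · simp
  · simpa using hk1 m ((Fin.succAbove_lt_succAbove_iff).1 hl)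

lemma lt_of_insertNth_lt {i : Fin (n + 1)} {j : ℕ} {y y' : Fin n → ℕ}
    (h : toLex (i.insertNth j y : Fin (n + 1) → ℕ) < toLex (i.insertNth j y' : Fin (n + 1) → ℕ)) :
    toLex y < toLex y' := by
  rcases lt_trichotomy (toLex y) (toLex y') with h' | h' | h'
  · exact h'
  · rw [toLex.injective h'] at h; exact absurd h (lt_irrefl _)
  · exact absurd (insertNth_lt h') (not_lt.2 h.le)

lemma insertNth_mem_box {a : Fin (n + 1) → ℕ} {i : Fin (n + 1)} {j d : ℕ} {y : Fin n → ℕ} :
    (i.insertNth j y : Fin (n + 1) → ℕ) ∈ box a d ↔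
      j < a i ∧ j ≤ d ∧ y ∈ box (a ∘ i.succAbove) (d - j) := by
  rw [mem_box, mem_box, Fin.sum_univ_succAbove _ i, Fin.forall_iff_succAbove i]
  simp only [Fin.insertNth_apply_same, Fin.insertNth_apply_succAbove, Function.comp_apply]
  constructor
  · rintro ⟨h1, h2, h3⟩; exact ⟨h2, by omega, by omega, h3⟩
  · rintro ⟨h1, h2, h3, h4⟩; exact ⟨by omega, h1, h4⟩

/-- The slice with coordinate `i` equal to `j`. -/
def slice (i : Fin (n + 1)) (A : Finset (Fin (n + 1) → ℕ)) (j : ℕ) : Finset (Fin n → ℕ) :=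
  (A.filter fun e => e i = j).image i.removeNth

lemma mem_slice {i : Fin (n + 1)} {A : Finset (Fin (n + 1) → ℕ)} {j : ℕ} {y : Fin n → ℕ} :
    y ∈ slice i A j ↔ (i.insertNth j y : Fin (n + 1) → ℕ) ∈ A := by
  simp only [slice, Finset.mem_image, Finset.mem_filter]
  constructor
  · rintro ⟨e, ⟨he, rfl⟩, rfl⟩
    rwa [Fin.insertNth_self_removeNth]
  · intro h
    exact ⟨_, ⟨h, Fin.insertNth_apply_same _ _ _⟩, Fin.removeNth_insertNth _ _ _⟩

lemma sum_slices {i : Fin (n + 1)} {A : Finset (Fin (n + 1) → ℕ)} {N : ℕ}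
    (hA : ∀ e ∈ A, e i < N) (ψ : (Fin (n + 1) → ℕ) → ℕ) :
    ∑ e ∈ A, ψ e = ∑ j ∈ Finset.range N, ∑ y ∈ slice i A j, ψ (i.insertNth j y) := by
  rw [← Finset.sum_fiberwise_of_maps_to (g := fun e => e i) (t := Finset.range N)
    (fun e he => Finset.mem_range.2 (hA e he))]
  refine Finset.sum_congr rfl fun j _ => ?_
  unfold slice
  rw [Finset.sum_image]
  · refine Finset.sum_congr rfl fun e he => ?_
    rw [← (Finset.mem_filter.1 he).2, Fin.insertNth_self_removeNth]
  · intro e he e' he' h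
    have h1 := (Finset.mem_filter.1 he).2
    have h2 := (Finset.mem_filter.1 he').2
    rw [← Fin.insertNth_self_removeNth i e, ← Fin.insertNth_self_removeNth i e', h, h1, h2]

lemma card_slices {i : Fin (n + 1)} {A : Finset (Fin (n + 1) → ℕ)} {N : ℕ}
    (hA : ∀ e ∈ A, e i < N) : A.card = ∑ j ∈ Finset.range N, (slice i A j).card := by
  simpa using sum_slices hA fun _ => 1

lemma coord_le {a : Fin n → ℕ} {d : ℕ} {e : Fin n → ℕ} (he : e ∈ box a d) (i : Fin n) :
    e i ≤ d := by
  obtain ⟨h, -⟩ := mem_box.1 he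
  rw [← h]
  exact Finset.single_le_sum (fun k _ => Nat.zero_le (e k)) (Finset.mem_univ i)

lemma slice_subset {a : Fin (n + 1) → ℕ} {d : ℕ} {A : Finset (Fin (n + 1) → ℕ)}
    (hA : A ⊆ box a d) (i : Fin (n + 1)) (j : ℕ) :
    slice i A j ⊆ box (a ∘ i.succAbove) (d - j) := fun _ hy =>
  (insertNth_mem_box.1 (hA (mem_slice.1 hy))).2.2

lemma mem_slice_up {a : Fin (n + 1) → ℕ} {d : ℕ} {A : Finset (Fin (n + 1) → ℕ)}
    (hA : A ⊆ box a d) {i : Fin (n + 1)} {j : ℕ} {y : Fin n → ℕ} :
    y ∈ slice i (up a d A) j ↔ j < a i ∧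
      ((j ≤ d ∧ y ∈ up (a ∘ i.succAbove) (d - j) (slice i A j)) ∨
        (1 ≤ j ∧ y ∈ slice i A (j - 1))) := by
  rw [mem_slice]
  constructor
  · intro h
    obtain ⟨hb, k, hk, hm⟩ := mem_up.1 h
    obtain ⟨hj, hjd, hy⟩ := insertNth_mem_box.1 hb
    refine ⟨hj, ?_⟩
    rcases Fin.eq_self_or_eq_succAbove i k with rfl | ⟨l, rfl⟩
    · simp only [Fin.insertNth_apply_same] at hk
      refine Or.inr ⟨hk, mem_slice.2 ?_⟩
      simpa [lower] using hm
    · simp only [Fin.insertNth_apply_succAbove] at hk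
      have e : lower (i.insertNth j y : Fin (n + 1) → ℕ) (i.succAbove l) =
          (i.insertNth j (lower y l) : Fin (n + 1) → ℕ) := by
        simp [lower, Fin.insertNth_update]
      rw [e] at hm
      have hjd' : j ≤ d := (insertNth_mem_box.1 (hA hm)).2.1
      refine Or.inl ⟨hjd', mem_up.2 ⟨?_, l, hk, mem_slice.2 hm⟩⟩
      rwa [show d - j + 1 = d + 1 - j by omega]
  · rintro ⟨hj, ⟨hjd, hy⟩ | ⟨hj1, hy⟩⟩
    · obtain ⟨hb, l, hl, hm⟩ := mem_up.1 hy
      refine mem_up.2 ⟨insertNth_mem_box.2 ⟨hj, by omega,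
        by rwa [show d + 1 - j = d - j + 1 by omega]⟩, i.succAbove l, by simpa using hl, ?_⟩
      rw [show lower (i.insertNth j y : Fin (n + 1) → ℕ) (i.succAbove l) =
        (i.insertNth j (lower y l) : Fin (n + 1) → ℕ) by simp [lower, Fin.insertNth_update]]
      exact mem_slice.1 hm
    · have hm := mem_slice.1 hy
      obtain ⟨-, hjd, hyb⟩ := insertNth_mem_box.1 (hA hm)
      refine mem_up.2 ⟨insertNth_mem_box.2 ⟨hj, by omega,
        by rwa [show d + 1 - j = d - (j - 1) by omega]⟩, i, by simp; omega, ?_⟩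
      simpa [lower] using hm

/-- Number of smaller exponents. -/
noncomputable def rank (a : Fin n → ℕ) (d : ℕ) (e : Fin n → ℕ) : ℕ := by
  classical exact ((box a d).filter fun g => toLex g < toLex e).card

lemma rank_lt {a : Fin n → ℕ} {d : ℕ} {e e' : Fin n → ℕ} (he : e ∈ box a d)
    (h : toLex e < toLex e') : rank a d e < rank a d e' := by
  classical
  simp only [rank]
  refine Finset.card_lt_card ((Finset.ssubset_iff_of_subset fun g hg => ?_).2 ⟨e, ?_, ?_⟩)
  · simp only [Finset.mem_filter] at hg ⊢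
    exact ⟨hg.1, hg.2.trans h⟩
  · simp [he, h]
  · simp only [Finset.mem_filter, not_and]
    exact fun _ h' => lt_irrefl (toLex e) h'

lemma sum_lt_sum_top {a : Fin n → ℕ} {d : ℕ} {B T : Finset (Fin n → ℕ)} (hB : B ⊆ box a d)
    (hT : IsTop a d T) (hc : B.card = T.card) (hne : B ≠ T) (ψ : (Fin n → ℕ) → ℕ)
    (hψ : ∀ x ∈ box a d, ∀ y ∈ box a d, toLex x < toLex y → ψ x < ψ y) :
    ∑ x ∈ B, ψ x < ∑ x ∈ T, ψ x := by
  have h1 : (B \ T).card = (T \ B).card := by
    have e1 := Finset.card_sdiff_add_card_inter B T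
    have e2 := Finset.card_sdiff_add_card_inter T B
    rw [Finset.inter_comm T B] at e2
    omega
  have hne' : (B \ T).Nonempty := by
    by_contra h
    rw [Finset.not_nonempty_iff_eq_empty, Finset.sdiff_eq_empty_iff_subset] at h
    exact hne (Finset.eq_of_subset_of_card_le h hc.ge)
  obtain ⟨m, hm, hmax⟩ := Finset.exists_max_image (B \ T) ψ hne'
  have hlt : ∀ y ∈ T \ B, ψ m < ψ y := fun y hy => by
    rw [Finset.mem_sdiff] at hm hy
    rcases lt_trichotomy (toLex m) (toLex y) with h | h | h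
    · exact hψ m (hB hm.1) y (hT.1 hy.1) h
    · exact absurd (toLex.injective h ▸ hy.1) hm.2
    · exact absurd (hT.2 y hy.1 m (hB hm.1) h) hm.2
  have hne'' : (T \ B).Nonempty := Finset.card_pos.1 (h1 ▸ Finset.card_pos.2 hne')
  have s1 : ∑ x ∈ B \ T, ψ x ≤ (B \ T).card • ψ m := Finset.sum_le_card_nsmul _ _ _ hmax
  have s2 : ∑ _x ∈ T \ B, ψ m < ∑ x ∈ T \ B, ψ x := Finset.sum_lt_sum_of_nonempty hne'' hlt
  rw [Finset.sum_const, ← h1] at s2
  have e1 := Finset.sum_inter_add_sum_sdiff B T ψ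
  have e2 := Finset.sum_inter_add_sum_sdiff T B ψ
  rw [Finset.inter_comm T B] at e2
  omega

/-- The comparison of shadows with those of segments. -/
def CLHolds (n : ℕ) : Prop :=
  ∀ a : Fin n → ℕ, Monotone a → ∀ d, ∀ A S : Finset (Fin n → ℕ), A ⊆ box a d → IsTop a d S →
    S.card ≤ A.card → (up a d S).card ≤ (up a d A).card

lemma exists_compress (IH : CLHolds n) {a : Fin (n + 1) → ℕ} (ha : Monotone a) {d : ℕ}
    {A : Finset (Fin (n + 1) → ℕ)} (hA : A ⊆ box a d) (i : Fin (n + 1))
    {e e' : Fin (n + 1) → ℕ} (he : e ∈ A) (he' : e' ∈ box a d) (hn : e' ∉ A)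
    (hlt : toLex e < toLex e') (hi : e i = e' i) :
    ∃ C, C ⊆ box a d ∧ C.card = A.card ∧ (up a d C).card ≤ (up a d A).card ∧
      ∑ g ∈ A, rank a d g < ∑ g ∈ C, rank a d g := by
  classical
  set a' := a ∘ i.succAbove with ha'
  have ha'm : Monotone a' := ha.comp (Fin.strictMono_succAbove i).monotone
  have hex : ∀ j, ∃ T, IsTop a' (d - j) T ∧ T.card = (slice i A j).card := fun j =>
    exists_isTop a' (d - j) _ (Finset.card_le_card (slice_subset hA i j))
  choose T hT hTc using hex
  set C := (box a d).filter fun g => (i.removeNth g : Fin n → ℕ) ∈ T (g i) with hC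
  have hCb : C ⊆ box a d := Finset.filter_subset _ _
  have hCs : ∀ j, slice i C j = T j := by
    intro j
    ext y
    rw [mem_slice, hC, Finset.mem_filter, insertNth_mem_box]
    simp only [Fin.insertNth_apply_same, Fin.removeNth_insertNth]
    refine ⟨fun h => h.2, fun h => ?_⟩
    have hpos : 0 < (slice i A j).card := hTc j ▸ Finset.card_pos.2 ⟨y, h⟩
    obtain ⟨z, hz⟩ := Finset.card_pos.1 hpos
    obtain ⟨h1, h2, -⟩ := insertNth_mem_box.1 (hA (mem_slice.1 hz))
    exact ⟨⟨h1, h2, (hT j).1 h⟩, h⟩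
  have hbound : ∀ {B : Finset (Fin (n + 1) → ℕ)} {t : ℕ}, B ⊆ box a t → ∀ g ∈ B, g i < t + 1 :=
    fun hB g hg => Nat.lt_succ_of_le (coord_le (hB hg) i)
  refine ⟨C, hCb, ?_, ?_, ?_⟩
  · rw [card_slices (hbound hCb), card_slices (hbound hA)]
    exact Finset.sum_congr rfl fun j _ => by rw [hCs, hTc]
  · rw [card_slices (hbound (up_subset a d C)), card_slices (hbound (up_subset a d A))]
    refine Finset.sum_le_sum fun j hj => ?_
    rw [Finset.mem_range] at hj
    by_cases hja : j < a i
    swap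
    · rw [show slice i (up a d C) j = ∅ from Finset.eq_empty_of_forall_notMem fun y hy =>
        hja ((mem_slice_up hCb).1 hy).1, Finset.card_empty]
      exact Nat.zero_le _
    have hsA1 : ∀ y, j ≤ d → y ∈ up a' (d - j) (slice i A j) → y ∈ slice i (up a d A) j :=
      fun y h1 h2 => (mem_slice_up hA).2 ⟨hja, Or.inl ⟨h1, h2⟩⟩
    have hsA2 : ∀ y, 1 ≤ j → y ∈ slice i A (j - 1) → y ∈ slice i (up a d A) j :=
      fun y h1 h2 => (mem_slice_up hA).2 ⟨hja, Or.inr ⟨h1, h2⟩⟩
    by_cases hjd : j ≤ d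
    · have hX : (up a' (d - j) (T j)).card ≤ (up a' (d - j) (slice i A j)).card :=
        IH a' ha'm _ _ _ (slice_subset hA i j) (hT j) (hTc j).le
      have hX' := hX.trans (Finset.card_le_card fun y hy => hsA1 y hjd hy)
      rcases Nat.eq_zero_or_pos j with rfl | hj1
      · refine le_trans (Finset.card_le_card fun y hy => ?_) hX'
        rcases ((mem_slice_up hCb).1 hy).2 with ⟨-, h⟩ | ⟨h, -⟩
        · rwa [hCs] at h
        · exact absurd h (by omega)
      · have hY' : (T (j - 1)).card ≤ (slice i (up a d A) j).card :=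
          (hTc _).le.trans (Finset.card_le_card fun y hy => hsA2 y hj1 hy)
        have ht1 : IsTop a' (d - j + 1) (up a' (d - j) (T j)) := (hT j).up
        have ht2 : IsTop a' (d - j + 1) (T (j - 1)) := by
          have := hT (j - 1)
          rwa [show d - (j - 1) = d - j + 1 by omega] at this
        have hsub : slice i (up a d C) j ⊆ up a' (d - j) (T j) ∪ T (j - 1) := fun y hy => by
          rcases ((mem_slice_up hCb).1 hy).2 with ⟨-, h⟩ | ⟨-, h⟩
          · rw [hCs] at h; exact Finset.mem_union_left _ h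
          · rw [hCs] at h; exact Finset.mem_union_right _ h
        refine (Finset.card_le_card hsub).trans ?_
        rcases ht1.total ht2 with h | h
        · rw [Finset.union_eq_right.2 h]; exact hY'
        · rw [Finset.union_eq_left.2 h]; exact hX'
    · refine le_trans (Finset.card_le_card (t := T (j - 1)) fun y hy => ?_)
        ((hTc _).le.trans (Finset.card_le_card fun y hy => hsA2 y (by omega) hy))
      rcases ((mem_slice_up hCb).1 hy).2 with ⟨h, -⟩ | ⟨-, h⟩
      · exact absurd h hjd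
      · rwa [hCs] at h
  · rw [sum_slices (hbound hA), sum_slices (hbound hCb)]
    have key : ∀ j, slice i A j ≠ T j →
        ∑ y ∈ slice i A j, rank a d (i.insertNth j y) <
          ∑ y ∈ T j, rank a d (i.insertNth j y) := fun j hne => by
      obtain ⟨z, hz⟩ : (slice i A j).Nonempty := by
        by_contra h
        rw [Finset.not_nonempty_iff_eq_empty] at h
        refine hne ?_
        rw [h, eq_comm, ← Finset.card_eq_zero, hTc, h, Finset.card_empty]
      obtain ⟨h1, h2, -⟩ := insertNth_mem_box.1 (hA (mem_slice.1 hz))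
      exact sum_lt_sum_top (slice_subset hA i j) (hT j) (hTc j).symm hne _ fun x hx y _ hxy =>
        rank_lt (insertNth_mem_box.2 ⟨h1, h2, hx⟩) (insertNth_lt hxy)
    refine Finset.sum_lt_sum (fun j _ => ?_) ⟨e i, Finset.mem_range.2 (hbound hA e he), ?_⟩
    · rw [hCs]
      by_cases h : slice i A j = T j
      · rw [h]
      · exact (key j h).le
    · rw [hCs]
      refine key _ fun h => hn ?_
      have hy : (i.removeNth e : Fin n → ℕ) ∈ slice i A (e i) :=
        mem_slice.2 (by rwa [Fin.insertNth_self_removeNth])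
      rw [← Fin.insertNth_self_removeNth i e', ← hi]
      refine mem_slice.1 (h ▸ (hT (e i)).2 _ (h ▸ hy) _ ?_ ?_)
      · have := insertNth_mem_box.1 ((Fin.insertNth_self_removeNth i e').symm ▸ he')
        rw [← hi] at this
        exact this.2.2
      · refine lt_of_insertNth_lt (i := i) (j := e i) ?_
        rw [Fin.insertNth_self_removeNth]
        rw [hi, Fin.insertNth_self_removeNth]
        exact hlt

/-- Change two coordinates. -/
def set2 (g : Fin n → ℕ) (p q : Fin n) (u v : ℕ) : Fin n → ℕ :=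
  Function.update (Function.update g p u) q v

lemma set2_first (g : Fin n → ℕ) {p q : Fin n} (h : p ≠ q) (u v : ℕ) : set2 g p q u v p = u := by
  simp [set2, h]

lemma set2_second (g : Fin n → ℕ) (p q : Fin n) (u v : ℕ) : set2 g p q u v q = v := by
  simp [set2]

lemma set2_other (g : Fin n → ℕ) {p q k : Fin n} (h1 : k ≠ p) (h2 : k ≠ q) (u v : ℕ) :
    set2 g p q u v k = g k := by
  simp [set2, h1, h2]

lemma set2_mem_box {a : Fin n → ℕ} {d : ℕ} {g : Fin n → ℕ} {p q : Fin n} {u v : ℕ}
    (hg : g ∈ box a d) (hpq : p ≠ q) (hu : u < a p) (hv : v < a q) (hsum : u + v = g p + g q) :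
    set2 g p q u v ∈ box a d := by
  obtain ⟨h1, h2⟩ := mem_box.1 hg
  refine mem_box.2 ⟨?_, fun k => ?_⟩
  · have e : set2 g p q u v + (Pi.single p (g p) + Pi.single q (g q)) =
        g + (Pi.single p u + Pi.single q v) := by
      funext k
      by_cases hk1 : k = p
      · subst hk1; simp [set2_first g hpq, hpq, add_comm]
      · by_cases hk2 : k = q
        · subst hk2; simp [set2_second, hpq.symm, add_comm]
        · simp [set2_other g hk1 hk2, hk1, hk2]
    have := congrArg (fun w : Fin n → ℕ => ∑ k, w k) e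
    simp only [Pi.add_apply, Finset.sum_add_distrib, Finset.sum_pi_single', Finset.mem_univ,
      if_true] at this
    omega
  · by_cases hk1 : k = p
    · subst hk1; rwa [set2_first g hpq]
    · by_cases hk2 : k = q
      · subst hk2; rwa [set2_second]
      · rw [set2_other g hk1 hk2]; exact h2 k

lemma exists_exchange {m : ℕ} {a : Fin (m + 3) → ℕ} {d : ℕ} {A : Finset (Fin (m + 3) → ℕ)}
    (hA : A ⊆ box a d)
    (hcomp : ∀ i, ∀ e ∈ A, ∀ e' ∈ box a d, toLex e < toLex e' → e i = e' i → e' ∈ A)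
    (hnot : ¬ IsTop a d A) :
    ∃ C, C ⊆ box a d ∧ C.card = A.card ∧ (up a d C).card ≤ (up a d A).card ∧
      ∑ g ∈ A, rank a d g < ∑ g ∈ C, rank a d g := by
  classical
  unfold IsTop at hnot
  push Not at hnot
  obtain ⟨e0, he0, g0, hg0, hlt0, hg0'⟩ := hnot hA
  obtain ⟨e, he, hemin⟩ := Finset.exists_min_image A toLex ⟨e0, he0⟩
  obtain ⟨g, hg, hgmax⟩ := Finset.exists_max_image (box a d \ A) toLex
    ⟨g0, Finset.mem_sdiff.2 ⟨hg0, hg0'⟩⟩
  rw [Finset.mem_sdiff] at hg
  obtain ⟨hgb, hgA⟩ := hg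
  have heg : toLex e < toLex g :=
    lt_of_le_of_lt (hemin e0 he0)
      (lt_of_lt_of_le hlt0 (hgmax g0 (Finset.mem_sdiff.2 ⟨hg0, hg0'⟩)))
  have hdiff : ∀ i, e i ≠ g i := fun i h => hgA (hcomp i e he g hgb heg h)
  have hbetw : ∀ z ∈ box a d, ∀ i k, toLex e < toLex z → toLex z < toLex g → z i = g i →
      z k = e k → False := by
    intro z hz i k h1 h2 h3 h4
    by_cases hzA : z ∈ A
    · exact hgA (hcomp i z hzA g hgb h2 h3)
    · exact hzA (hcomp k e he z hz h1 h4.symm)
  obtain ⟨heb1, heb2⟩ := mem_box.1 (hA he)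
  obtain ⟨hgb1, hgb2⟩ := mem_box.1 hgb
  have h0 : e 0 < g 0 := by
    obtain ⟨j, hj1, hj2⟩ := lt_iff.1 heg
    rcases eq_or_ne j 0 with rfl | hj
    · exact hj2
    · exact absurd (hj1 0 (Fin.pos_iff_ne_zero.2 hj)) (hdiff 0)
  set l := Fin.last (m + 2) with hl
  have hl0 : (0 : Fin (m + 3)) ≠ l := by simp [hl, Fin.ext_iff]
  have hlast : e l < g l := by
    by_contra hcon
    have hel : g l < e l := lt_of_le_of_ne (not_lt.1 hcon) (Ne.symm (hdiff l))
    by_cases hmid : ∃ i, i ≠ 0 ∧ i ≠ l ∧ e i < g i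
    · obtain ⟨i, hi0, hil, hi⟩ := hmid
      set δ := min (g i - e i) (e l - g l) with hδ
      set z := set2 g i l (g i - δ) (g l + δ) with hz
      have hzb : z ∈ box a d := by
        refine set2_mem_box hgb hil ?_ ?_ ?_
        · have := hgb2 i; omega
        · have := heb2 l; omega
        · omega
      have h1 : toLex e < toLex z := lt_iff.2 ⟨0, fun k hk => absurd hk (Fin.not_lt_zero k),
        by rw [hz, set2_other g hi0.symm hl0]; exact h0⟩
      have h2 : toLex z < toLex g := lt_iff.2 ⟨i, fun k hk => by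
        rw [hz, set2_other g (ne_of_lt hk) (ne_of_lt (lt_of_lt_of_le hk (Fin.le_last i)))],
        by rw [hz, set2_first g hil]; omega⟩
      have h3 : z 0 = g 0 := by rw [hz, set2_other g hi0.symm hl0]
      rcases le_total (g i - e i) (e l - g l) with h | h
      · exact hbetw z hzb 0 i h1 h2 h3 (by rw [hz, set2_first g hil]; omega)
      · exact hbetw z hzb 0 l h1 h2 h3 (by rw [hz, set2_second]; omega)
    · push Not at hmid
      have h10 : (1 : Fin (m + 3)) ≠ 0 := by simp
      have h1l : (1 : Fin (m + 3)) ≠ l := by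
        simp [hl, Fin.ext_iff]
      have h1m : g 1 < e 1 := lt_of_le_of_ne (hmid 1 h10 h1l) (Ne.symm (hdiff 1))
      have hle : ∀ k, k ≠ 0 → g k ≤ e k := fun k hk => by
        rcases eq_or_ne k l with rfl | hkl
        · exact hel.le
        · exact hmid k hk hkl
      have hkey : e 1 - g 1 < g 0 - e 0 := by
        have : ∀ w : Fin (m + 3) → ℕ, ∑ k, w k =
            w 0 + (w 1 + (w l + ∑ k ∈ ((Finset.univ.erase 0).erase 1).erase l, w k)) := fun w => by
          rw [Finset.add_sum_erase _ _ (by simp [h1l.symm, hl0.symm]),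
            Finset.add_sum_erase _ _ (by simp [h10]), Finset.add_sum_erase _ _ (Finset.mem_univ _)]
        rw [this e] at heb1
        rw [this g] at hgb1
        have hrest : ∑ k ∈ ((Finset.univ.erase 0).erase 1).erase l, g k ≤
            ∑ k ∈ ((Finset.univ.erase 0).erase 1).erase l, e k := by
          refine Finset.sum_le_sum fun k hk => hle k ?_
          simp only [Finset.mem_erase] at hk
          exact hk.2.2.1
        omega
      set z := set2 e 0 1 (e 0 + (e 1 - g 1)) (g 1) with hz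
      have hzb : z ∈ box a d :=
        set2_mem_box (hA he) h10.symm (by have := hgb2 0; omega) (hgb2 1) (by omega)
      refine hbetw z hzb 1 l (lt_iff.2 ⟨0, fun k hk => absurd hk (Fin.not_lt_zero k),
          by rw [hz, set2_first e h10.symm]; omega⟩)
        (lt_iff.2 ⟨0, fun k hk => absurd hk (Fin.not_lt_zero k),
          by rw [hz, set2_first e h10.symm]; omega⟩)
        (by rw [hz, set2_second]) (by rw [hz, set2_other e hl0.symm h1l.symm])
  refine ⟨insert g (A.erase e),
    Finset.insert_subset hgb ((Finset.erase_subset _ _).trans hA), ?_, ?_, ?_⟩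
  · rw [Finset.card_insert_of_notMem fun h => hgA (Finset.mem_of_mem_erase h),
      Finset.card_erase_add_one he]
  · have hout : raise e l ∈ up a d A := mem_up.2 ⟨mem_box_raise (hA he) (by
      have := hgb2 l; omega), l, by rw [raise_self]; omega, by rw [lower_raise]; exact he⟩
    suffices hsub : up a d (insert g (A.erase e)) ⊆
        insert (raise g l) ((up a d A).erase (raise e l)) by
      refine (Finset.card_le_card hsub).trans ((Finset.card_insert_le _ _).trans ?_)
      rw [Finset.card_erase_add_one hout]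
    intro f hf
    obtain ⟨hfb, i, hi, hm⟩ := mem_up.1 hf
    by_cases hfg : f = raise g l
    · exact Finset.mem_insert.2 (Or.inl hfg)
    refine Finset.mem_insert_of_mem ?_
    rcases Finset.mem_insert.1 hm with hm | hm
    · have hfe : f = raise g i := by rw [← hm, raise_lower hi]
      have hil : i ≠ l := fun h => hfg (by rw [hfe, h])
      have hfl : f l = g l := by rw [hfe, raise_ne _ hil.symm]
      have hpos : 0 < f l := by omega
      have hh : toLex g < toLex (lower f l) := lt_iff.2 ⟨i, fun k hk => by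
        rw [lower_ne _ (ne_of_lt (lt_of_lt_of_le hk (Fin.le_last i))), hfe,
          raise_ne _ (ne_of_lt hk)], by
        rw [lower_ne _ hil, hfe, raise_self]; omega⟩
      refine Finset.mem_erase.2 ⟨fun h => ?_, mem_up.2 ⟨hfb, l, hpos, by_contra fun hne =>
        absurd (hgmax _ (Finset.mem_sdiff.2 ⟨lower_mem_box hfb hpos, hne⟩)) (not_le.2 hh)⟩⟩
      have := congrFun h l
      rw [raise_self] at this
      rw [h, lower_raise] at hh
      exact absurd (hh.trans' heg) (lt_irrefl _)
    · obtain ⟨hne, hmA⟩ := Finset.mem_erase.1 hm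
      refine Finset.mem_erase.2 ⟨fun h => ?_, mem_up.2 ⟨hfb, i, hi, hmA⟩⟩
      rw [h] at hmA hne hi
      rcases eq_or_ne i l with rfl | hil
      · exact hne (lower_raise _ _)
      · rw [raise_ne _ hil] at hi
        refine absurd (hemin _ hmA) (not_le.2 (lt_iff.2 ⟨i, fun k hk => ?_, ?_⟩))
        · rw [lower_ne _ (ne_of_lt hk),
            raise_ne _ (ne_of_lt (lt_of_lt_of_le hk (Fin.le_last i)))]
        · rw [lower_self, raise_ne _ hil]; omega
  · rw [Finset.sum_insert fun h => hgA (Finset.mem_of_mem_erase h)]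
    have h1 := Finset.add_sum_erase A (fun x => rank a d x) he
    have h2 := rank_lt (hA he) heg
    omega

end Vale.Agent.P200.CL
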