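import Vale.Agent.P200.CL.Two
import Vale.Agent.P200.CL.Compress

/-!
The segment has the smallest shadow.
-/

namespace Vale.Agent.P200.CL

lemma exists_larger {m : ℕ} (IH : CLHolds (m + 2)) {a : Fin (m + 3) → ℕ} (ha : Monotone a) {d : ℕ}
    {A : Finset (Fin (m + 3) → ℕ)} (hA : A ⊆ box a d) (hnot : ¬ IsTop a d A) :
    ∃ C, C ⊆ box a d ∧ C.card = A.card ∧ (up a d C).card ≤ (up a d A).card ∧
      ∑ g ∈ A, rank a d g < ∑ g ∈ C, rank a d g := by
  by_cases h : ∀ i, ∀ e ∈ A, ∀ e' ∈ box a d, toLex e < toLex e' → e i = e' i → e' ∈ A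
  · exact exists_exchange hA h hnot
  · push Not at h
    obtain ⟨i, e, he, e', he', hlt, hi, hn⟩ := h
    exact exists_compress IH ha hA i he he' hn hlt hi

/-- Clements-Lindström: among sets of given size in a degree the segment has least shadow. -/
theorem cl_holds : ∀ n, CLHolds n
  | 0 | 1 => by
    intro a _ d A S hA hS hc
    have hbox : ∀ e ∈ box a d, ∀ e' ∈ box a d, e = e' := fun e he e' he' => by
      have h1 := (mem_box.1 he).1
      have h2 := (mem_box.1 he').1
      funext i
      simp only [Fin.sum_univ_zero, Fin.sum_univ_one] at h1 h2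
      first
        | exact i.elim0
        | (obtain rfl : i = 0 := Subsingleton.elim _ _; omega)
    refine Finset.card_le_card (up_mono fun e he => ?_)
    obtain ⟨x, hx⟩ := Finset.card_pos.1 (lt_of_lt_of_le (Finset.card_pos.2 ⟨e, he⟩) hc)
    exact hbox x (hA hx) e (hS.1 he) ▸ hx
  | 2 => fun a ha d A S hA hS hc => up_le_two (ha (Fin.zero_le _)) hA hS hc
  | m + 3 => by
    intro a ha d A S hA hS hc
    suffices key : ∀ k, ∀ B ⊆ box a d,
        (∑ g ∈ box a d, rank a d g) - (∑ g ∈ B, rank a d g) = k →
        S.card ≤ B.card → (up a d S).card ≤ (up a d B).card from key _ A hA rfl hc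
    intro k
    induction k using Nat.strong_induction_on with
    | _ k ih =>
      intro B hB hk hBc
      by_cases htop : IsTop a d B
      · exact Finset.card_le_card (up_mono (hS.subset_of_card htop hBc))
      · obtain ⟨C, hC, hcC, hupC, hw⟩ := exists_larger (cl_holds (m + 2)) ha hB htop
        have hle : ∑ g ∈ C, rank a d g ≤ ∑ g ∈ box a d, rank a d g :=
          Finset.sum_le_sum_of_subset hC
        exact (ih _ (by omega) C hC rfl (hcC ▸ hBc)).trans hupC

end Vale.Agent.P200.CL
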