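import Vale.Agent.P200.CL.Box

/-!
The two-coordinate case.
-/

namespace Vale.Agent.P200.CL

/-- A pair with given degree and first coordinate. -/
def pair (d y : ℕ) : Fin 2 → ℕ := ![y, d - y]

lemma eq_pair {a : Fin 2 → ℕ} {d : ℕ} {e : Fin 2 → ℕ} (he : e ∈ box a d) :
    e = pair d (e 0) ∧ e 0 ≤ d ∧ e 0 < a 0 ∧ d - e 0 < a 1 := by
  obtain ⟨h1, h2⟩ := mem_box.1 he
  rw [Fin.sum_univ_two] at h1
  have := h2 0
  have := h2 1
  refine ⟨?_, by omega, by omega, by omega⟩
  funext i
  fin_cases i <;> simp [pair]; omega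

lemma pair_mem {a : Fin 2 → ℕ} {d y : ℕ} (h1 : y ≤ d) (h2 : y < a 0) (h3 : d - y < a 1) :
    pair d y ∈ box a d := by
  refine mem_box.2 ⟨by simp [pair, Fin.sum_univ_two]; omega, fun i => ?_⟩
  fin_cases i <;> simpa [pair]

lemma pair_lt {a : Fin 2 → ℕ} {d y : ℕ} {e : Fin 2 → ℕ} (_he : e ∈ box a d) (h : e 0 < y) :
    toLex e < toLex (pair d y) :=
  lt_iff.2 ⟨0, fun i hi => absurd hi (Fin.not_lt_zero i), by simpa [pair] using h⟩

lemma pred_cases {a : Fin 2 → ℕ} {d : ℕ} {A : Finset (Fin 2 → ℕ)} {f : Fin 2 → ℕ}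
    (hf : f ∈ up a d A) : ∃ e ∈ A, f 0 = e 0 ∨ f 0 = e 0 + 1 := by
  obtain ⟨-, i, hi, hm⟩ := mem_up.1 hf
  refine ⟨_, hm, ?_⟩
  fin_cases i
  · right; simp [lower] at hi ⊢; omega
  · left; simp [lower]

lemma mem_up_of_first {a : Fin 2 → ℕ} {d y : ℕ} {A : Finset (Fin 2 → ℕ)} (hA : A ⊆ box a d)
    (h1 : y ≤ d + 1) (h2 : y < a 0) (h3 : d + 1 - y < a 1)
    (hy : ∃ e ∈ A, y = e 0 ∨ y = e 0 + 1) : y ∈ (up a d A).image (fun f => f 0) := by
  obtain ⟨e, he, h⟩ := hy
  obtain ⟨hp, hd, -, -⟩ := eq_pair (hA he)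
  refine Finset.mem_image.2 ⟨pair (d + 1) y, mem_up.2 ⟨pair_mem h1 h2 h3, ?_⟩, by simp [pair]⟩
  rcases h with rfl | rfl
  · refine ⟨1, by simp [pair]; omega, ?_⟩
    rw [show lower (pair (d + 1) (e 0)) 1 = pair d (e 0) by
      funext i; fin_cases i <;> simp [lower, pair]; omega, ← hp]
    exact he
  · refine ⟨0, by simp [pair], ?_⟩
    rw [show lower (pair (d + 1) (e 0 + 1)) 0 = pair d (e 0) by
      funext i; fin_cases i <;> simp [lower, pair], ← hp]
    exact he

lemma injOn_first {a : Fin 2 → ℕ} {d : ℕ} {A : Finset (Fin 2 → ℕ)} (hA : A ⊆ box a d) :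
    Set.InjOn (fun f : Fin 2 → ℕ => f 0) ↑A := fun e he e' he' h => by
  rw [(eq_pair (hA he)).1, (eq_pair (hA he')).1]
  exact congrArg (pair d) h

theorem up_le_two {a : Fin 2 → ℕ} {d : ℕ} (ha : a 0 ≤ a 1) {A S : Finset (Fin 2 → ℕ)}
    (hA : A ⊆ box a d) (hS : IsTop a d S) (hc : S.card ≤ A.card) :
    (up a d S).card ≤ (up a d A).card := by
  rcases S.eq_empty_or_nonempty with rfl | hSne
  · simp [up]
  set X := A.image fun f => f 0 with hX
  set XS := S.image fun f => f 0 with hXS
  have hXc : X.card = A.card := Finset.card_image_of_injOn (injOn_first hA)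
  have hXSc : XS.card = S.card := Finset.card_image_of_injOn (injOn_first hS.1)
  have hUA : ((up a d A).image fun f => f 0).card = (up a d A).card :=
    Finset.card_image_of_injOn (injOn_first (up_subset a d A))
  have hUS : ((up a d S).image fun f => f 0).card = (up a d S).card :=
    Finset.card_image_of_injOn (injOn_first (up_subset a d S))
  set hi := min (a 0 - 1) d with hhi
  have hS1 : ((up a d S).image fun f => f 0) ⊆ insert (hi + 1) XS := by
    intro y hy
    obtain ⟨f, hf, rfl⟩ := Finset.mem_image.1 hy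
    obtain ⟨e, he, h | h⟩ := pred_cases hf
    · exact Finset.mem_insert_of_mem (Finset.mem_image.2 ⟨e, he, h.symm⟩)
    · obtain ⟨-, hd, ha0, ha1⟩ := eq_pair (hS.1 he)
      by_cases hh : f 0 ≤ hi
      · refine Finset.mem_insert_of_mem (Finset.mem_image.2 ⟨pair d (f 0), ?_, by simp [pair]⟩)
        exact hS.2 e he _ (pair_mem (by omega) (by omega) (by omega))
          (pair_lt (hS.1 he) (by omega))
      · exact Finset.mem_insert.2 (Or.inl (by omega))
  by_cases hclip : d + 1 < a 0
  · have hA1 : ∀ y, (∃ e ∈ A, y = e 0 ∨ y = e 0 + 1) → y ∈ (up a d A).image fun f => f 0 := by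
      rintro y ⟨e, he, h⟩
      obtain ⟨-, hd, ha0, ha1⟩ := eq_pair (hA he)
      exact mem_up_of_first hA (by omega) (by omega) (by omega) ⟨e, he, h⟩
    have hne : X.Nonempty := by
      rw [← Finset.card_pos]
      have := Finset.card_pos.2 hSne
      omega
    obtain ⟨e, he, hm⟩ := Finset.mem_image.1 (Finset.max'_mem X hne)
    have hnot : X.max' hne + 1 ∉ X := fun h => by
      have := Finset.le_max' X _ h
      omega
    have h1 : insert (X.max' hne + 1) X ⊆ (up a d A).image fun f => f 0 := by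
      intro y hy
      refine hA1 y ?_
      rcases Finset.mem_insert.1 hy with rfl | hy
      · exact ⟨e, he, Or.inr (by omega)⟩
      · obtain ⟨e', he', rfl⟩ := Finset.mem_image.1 hy
        exact ⟨e', he', Or.inl rfl⟩
    have h2 := Finset.card_le_card h1
    rw [Finset.card_insert_of_notMem hnot] at h2
    have h3 := (Finset.card_le_card hS1).trans (Finset.card_insert_le _ _)
    omega
  · have hS2 : ((up a d S).image fun f => f 0) ⊆ XS := by
      intro y hy
      rcases Finset.mem_insert.1 (hS1 hy) with h | h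
      · obtain ⟨f, hf, rfl⟩ := Finset.mem_image.1 hy
        obtain ⟨-, hd, ha0, ha1⟩ := eq_pair (up_subset a d S hf)
        omega
      · exact h
    have h3 := Finset.card_le_card hS2
    by_cases hall : A = box a d
    · have h4 : up a d S ⊆ up a d A := up_mono (hall ▸ hS.1)
      exact Finset.card_le_card h4
    suffices h : X.card ≤ ((up a d A).image fun f => f 0).card by omega
    by_cases hlo : ∃ e ∈ A, d + 1 - e 0 = a 1
    · obtain ⟨e, he, he1⟩ := hlo
      obtain ⟨hep, hed, hea0, hea1⟩ := eq_pair (hA he)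
      obtain ⟨g, hg, hgA⟩ : ∃ g ∈ box a d, g ∉ A := by
        by_contra hcon
        push Not at hcon
        exact hall (Finset.Subset.antisymm hA hcon)
      obtain ⟨hgp, hgd, hga0, hga1⟩ := eq_pair hg
      have hgX : g 0 ∉ X := fun h => by
        obtain ⟨e', he', h'⟩ := Finset.mem_image.1 h
        exact hgA (by rw [hgp, ← h', ← (eq_pair (hA he')).1]; exact he')
      have hge : e 0 < g 0 := by
        rcases Nat.lt_trichotomy (e 0) (g 0) with h | h | h
        · exact h
        · exact absurd (Finset.mem_image.2 ⟨e, he, h⟩) hgX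
        · omega
      have hex : ∃ y, e 0 < y ∧ y ∉ X := ⟨g 0, hge, hgX⟩
      obtain ⟨hy1, hy2⟩ := Nat.find_spec hex
      have hy3 : Nat.find hex ≤ g 0 := Nat.find_min' hex ⟨hge, hgX⟩
      set y := Nat.find hex with hy
      have hy4 : ∃ e' ∈ A, y = e' 0 + 1 := by
        by_cases hye : y = e 0 + 1
        · exact ⟨e, he, hye⟩
        · have := Nat.find_min hex (show y - 1 < y by omega)
          push Not at this
          obtain ⟨e', he', h'⟩ := Finset.mem_image.1 (this (by omega))
          exact ⟨e', he', by omega⟩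
      have hsub : insert y (X.erase (e 0)) ⊆ (up a d A).image fun f => f 0 := by
        intro z hz
        rcases Finset.mem_insert.1 hz with rfl | hz
        · obtain ⟨e', he', h'⟩ := hy4
          exact mem_up_of_first hA (by omega) (by omega) (by omega) ⟨e', he', Or.inr h'⟩
        · obtain ⟨hne, hzX⟩ := Finset.mem_erase.1 hz
          obtain ⟨e', he', rfl⟩ := Finset.mem_image.1 hzX
          obtain ⟨-, hd', ha0', ha1'⟩ := eq_pair (hA he')
          exact mem_up_of_first hA (by omega) (by omega) (by omega) ⟨e', he', Or.inl rfl⟩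
      have h5 := Finset.card_le_card hsub
      rw [Finset.card_insert_of_notMem (fun h => hy2 (Finset.mem_of_mem_erase h)),
        Finset.card_erase_add_one (Finset.mem_image_of_mem _ he)] at h5
      exact h5
    · refine Finset.card_le_card fun z hz => ?_
      push Not at hlo
      obtain ⟨e', he', rfl⟩ := Finset.mem_image.1 hz
      obtain ⟨-, hd', ha0', ha1'⟩ := eq_pair (hA he')
      have := hlo e' he'
      exact mem_up_of_first hA (by omega) (by omega) (by omega) ⟨e', he', Or.inl rfl⟩

end Vale.Agent.P200.CL
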